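import Vale.Agent.P361.Asym
import Vale.Agent.P361.Norm

/-! One half of Bloch's law with the sharp constant. -/

open Filter Topology

namespace Vale.Agent.Results.P361.A_upper

open Vale.Agent.P361

theorem result (n : ℕ) (hn : 0 < n) :
    ((∀ a, (spin n a).IsHermitian) ∧
      spin n 0 * spin n 1 - spin n 1 * spin n 0 = Complex.I • spin n 2 ∧
      spin n 1 * spin n 2 - spin n 2 * spin n 1 = Complex.I • spin n 0 ∧
      spin n 2 * spin n 0 - spin n 0 * spin n 2 = Complex.I • spin n 1 ∧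
      ∑ a, spin n a * spin n a = ((n : ℂ) / 2 * ((n : ℂ) / 2 + 1)) • 1) ∧
    ∀ c : ℝ, c < (riemannZeta (3 / 2)).re /
        (8 * Real.pi ^ (3 / 2 : ℝ) * ((n : ℝ) / 2) ^ (3 / 2 : ℝ)) →
      (∀ᶠ β : ℝ in atTop, ∀ᶠ h : ℝ in 𝓝[>] 0, ∀ᶠ N : ℕ in atTop,
        c ≤ β ^ (3 / 2 : ℝ) * ((n : ℝ) / 2 - gibbsMag n N β h)) ∧
      ∀ (p : ℝ → ℝ → ℝ) (m : ℝ → ℝ),
        (∀ β, 0 < β → ∀ h, Tendsto (fun N => pressN n N β h) atTop (𝓝 (p β h))) →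
        (∀ β, 0 < β → HasDerivWithinAt (p β) (m β) (Set.Ici 0) 0) →
        ∀ᶠ β : ℝ in atTop, c ≤ β ^ (3 / 2 : ℝ) * ((n : ℝ) / 2 - m β) :=
  ⟨spin_norm n, fun _ hc => ⟨bloch_fin hn hc, fun _ _ hp hm => bloch_lower hn hp hm hc⟩⟩

end Vale.Agent.Results.P361.A_upper
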